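import Vale.Agent.P327.Rig.FullMain

/-!
P327: the Turing degrees have no automorphism other than the identity.
-/

namespace Vale.Agent.Results.P327.Rigidity

open _root_.P327

theorem result : ∀ π : SetDegree ≃o SetDegree, π = OrderIso.refl SetDegree :=
  Rig.rigidity

end Vale.Agent.Results.P327.Rigidity
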